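import Vale.Agent.P232.GapSlab.Check

/-!
# P232: certificates for one small axis, the checker

On an interval of volumes, with one least slice area at most `1/2500` and the other two at least
`1/20`, a tree over (greatest slice area of the small axis, the other two least slice areas) selects
the base bound, the graph bound or the envelope coupling of the three axes. Numbers are integers
scaled by `10^7`.
-/

namespace Vale.Agent.P232.GapPair

/-- An interval of volumes, with values at its ends of a line above the goal and its margin. -/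
structure VBin where
  v0 : ℤ
  v1 : ℤ
  U0 : ℤ
  U1 : ℤ
  r : ℤ

/-- The line is above `min √(π v) 1` by a ten-millionth: either above one, or above the tangent of
the square root with parameter `r`. -/
def VBin.ok (B : VBin) : Bool :=
  decide (0 ≤ B.v0 ∧ B.v0 < B.v1 ∧ B.v1 ≤ scale ∧
    ((scale < B.U0 ∧ scale < B.U1) ∨
      (0 < B.r ∧ 31415927 * B.v0 + B.r ^ 2 ≤ 2 * B.r * (B.U0 - 1) ∧
        31415927 * B.v1 + B.r ^ 2 ≤ 2 * B.r * (B.U1 - 1))))

/-- A node of an envelope: abscissa, the two weights, a witness and a value below the profile. -/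
structure Node where
  x : ℕ
  al : ℕ
  be : ℕ
  mu : ℕ
  g : ℕ

/-- The node is an admissible pair of weights above the line; natural numbers keep the test fast. -/
def nodeE (lam k : ℕ) (H C : ℤ) (M : ℕ) (p : Node) : Bool :=
  Nat.ble p.x 10000000 && Nat.ble p.al M && Nat.ble (p.g * p.g) (31415926 * p.x) &&
    Nat.ble (p.g * p.g) (31415926 * (10000000 - p.x)) &&
    Nat.ble (210 * p.g * 1000000000000000000000 + 35 * (k * k) * 100000000000000 +
        6 * (k * k * (k * k)))
      (2100000000000000000000000000000 + 210 * k * p.x * 100000000000000) &&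
    Nat.ble 10000001 p.mu && Nat.ble p.mu lam &&
    Nat.ble (p.al * p.al * (p.mu - 10000000) + p.be * p.be * p.mu)
      (4 * p.mu * (p.mu - 10000000) * (lam - p.mu)) &&
    decide (H * p.x + C * 10000000 ≤ ((p.al * p.g : ℕ) : ℤ))

/-- Two neighbouring nodes: the middle coefficient. -/
def segE (H C : ℤ) (p q : Node) : Bool :=
  Nat.ble (p.x + 1) q.x &&
    decide (H * ((p.x + q.x : ℕ) : ℤ) + 2 * C * 10000000 ≤
      ((p.al * q.g + q.al * p.g : ℕ) : ℤ))

/-- The nodes form an envelope. -/
def chainE (lam k : ℕ) (H C : ℤ) (M : ℕ) : List Node → Bool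
  | [] => true
  | [p] => nodeE lam k H C M p
  | p :: q :: r => nodeE lam k H C M p && segE H C p q && chainE lam k H C M (q :: r)

/-- The second weights. -/
def proj (ns : List Node) : List (ℤ × ℤ) := ns.map fun p => ((p.x : ℤ), (p.be : ℤ))

/-- A tree over the greatest slice area of one axis. -/
inductive ATree : Type
  | base (H C : ℤ) (ns : List (ℤ × ℤ)) : ATree
  | env (H C : ℤ) (M : ℕ) (p₀ : Node) (ns : List Node) (p₁ : Node) : ATree
  | cut (m : ℤ) (l r : ATree) : ATree

/-- A bound `T` for the coupled bound with the weight `lam` and the tilt `k` of one axis, whose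
least slice area is in `[f0, f1]`, greatest in `[a0, a1]`, up to `M k` times the sum of the others. -/
structure Item where
  f0 : ℤ
  f1 : ℤ
  a0 : ℤ
  a1 : ℤ
  M : ℕ
  lam : ℕ
  k : ℕ
  T0 : ℤ
  T1 : ℤ
  tree : ATree

/-- The check of a tree of an item. -/
def ATree.check (B : VBin) (I : Item) : ATree → ℤ → ℤ → Bool
  | .base H C ns, a0, a1 =>
      GapSlab.leafOk H C ns I.f0 I.f1 a0 a1 &&
        decide (2 * B.U0 * scale ≤ 2 * H * B.v0 + 2 * C * scale + trap2 ns ∧
          2 * B.U1 * scale ≤ 2 * H * B.v1 + 2 * C * scale + trap2 ns)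
  | .env H C M p₀ ns p₁, a0, a1 =>
      chainE I.lam I.k H C M (p₀ :: (ns ++ [p₁])) && spanOk I.f1 a0 (proj ns) &&
        decide ((p₀.x : ℤ) = I.f0 ∧ (p₁.x : ℤ) = a1 ∧ M ≤ I.M ∧
          2 * I.T0 * scale ≤ 2 * H * B.v0 + 2 * C * scale + trap2 (proj ns) ∧
          2 * I.T1 * scale ≤ 2 * H * B.v1 + 2 * C * scale + trap2 (proj ns))
  | .cut m l r, a0, a1 => l.check B I a0 m && r.check B I m a1

/-- The check of an item. -/
def Item.ok (B : VBin) (I : Item) : Bool :=
  decide (10000000 ≤ I.lam ∧ I.k ≤ 4900000) && I.tree.check B I I.a0 I.a1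

/-- A tree over (greatest slice area of the small axis, the other two least slice areas). -/
inductive PTree : Type
  | base (H C : ℤ) (ns : List (ℤ × ℤ)) : PTree
  | graph : PTree
  | pair (i j l : ℕ) : PTree
  | cutX (m : ℤ) (l r : PTree) : PTree
  | cutY (m : ℤ) (l r : PTree) : PTree
  | cutZ (m : ℤ) (l r : PTree) : PTree
  | empty : PTree

/-- The rows served by the graph certificate: least greatest area, least of the other areas. -/
def rows : List (ℤ × ℤ) :=
  [(7080000, 0), (7000000, 500000), (6950000, 600000), (6900000, 710000), (6850000, 810000),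
    (6800000, 910000), (6750000, 990000), (6700000, 1060000), (6650000, 1110000),
    (6600000, 1150000), (6550000, 1180000), (4700000, 1250000)]

/-- The point is in one of the rows. -/
def rowOk (x t : ℤ) : Bool := rows.any fun r => decide (r.1 ≤ x ∧ r.2 ≤ t)

/-- The items of a coupled leaf fit its rectangle, and their sum is large enough. -/
def pairOk (B : VBin) (I J K : Item) (x0 x1 y0 y1 z0 z1 : ℤ) : Bool :=
  decide (I.f0 ≤ 0 ∧ 4000 ≤ I.f1 ∧ I.a0 ≤ x0 ∧ x1 ≤ I.a1 ∧
    J.f0 ≤ y0 ∧ y1 ≤ J.f1 ∧ J.a0 ≤ max B.v0 (y0 + 60000) ∧ scale ≤ J.a1 ∧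
    K.f0 ≤ z0 ∧ z1 ≤ K.f1 ∧ K.a0 ≤ max B.v0 (z0 + 60000) ∧ scale ≤ K.a1 ∧
    scale * ((I.lam : ℤ) + J.lam + K.lam - scale) * B.U0 + (I.M : ℤ) * I.k * (y1 + z1) +
        (J.M : ℤ) * J.k * (z1 + 4000) + (K.M : ℤ) * K.k * (y1 + 4000) ≤ scale ^ 2 * (I.T0 + J.T0 + K.T0) ∧
    scale * ((I.lam : ℤ) + J.lam + K.lam - scale) * B.U1 + (I.M : ℤ) * I.k * (y1 + z1) +
        (J.M : ℤ) * J.k * (z1 + 4000) + (K.M : ℤ) * K.k * (y1 + 4000) ≤ scale ^ 2 * (I.T1 + J.T1 + K.T1))

/-- The check of a coupled leaf that refers to a list of items. -/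
def pairAt (B : VBin) (items : List Item) (i j l : ℕ) (x0 x1 y0 y1 z0 z1 : ℤ) : Bool :=
  match items[i]?, items[j]?, items[l]? with
  | some I, some J, some K => pairOk B I J K x0 x1 y0 y1 z0 z1
  | _, _, _ => false

/-- The whole check, apart from that of the items. -/
def PTree.check (B : VBin) (items : List Item) : PTree → ℤ → ℤ → ℤ → ℤ → ℤ → ℤ → Bool
  | .base H C ns, x0, x1, _, _, _, _ =>
      GapSlab.leafOk H C ns 0 4000 x0 x1 &&
        decide (2 * B.U0 * scale ≤ 2 * H * B.v0 + 2 * C * scale + trap2 ns ∧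
          2 * B.U1 * scale ≤ 2 * H * B.v1 + 2 * C * scale + trap2 ns)
  | .graph, x0, x1, y0, _, _, _ => decide (x1 ≤ 9500000) && rowOk x0 y0
  | .pair i j l, x0, x1, y0, y1, z0, z1 => pairAt B items i j l x0 x1 y0 y1 z0 z1
  | .cutX m l r, x0, x1, y0, y1, z0, z1 =>
      l.check B items x0 m y0 y1 z0 z1 && r.check B items m x1 y0 y1 z0 z1
  | .cutY m l r, x0, x1, y0, y1, z0, z1 =>
      l.check B items x0 x1 y0 m z0 z1 && r.check B items x0 x1 m y1 z0 z1
  | .cutZ m l r, x0, x1, y0, y1, z0, z1 =>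
      l.check B items x0 x1 y0 y1 z0 m && r.check B items x0 x1 y0 y1 m z1
  | .empty, _, _, y0, _, _, z1 => decide (z1 < y0)

/-- The check of a tree on its full range. -/
def PTree.ok (B : VBin) (items : List Item) (T : PTree) : Bool :=
  B.ok && items.all (Item.ok B) && T.check B items 4800000 8000000 500000 B.v1 500000 B.v1

end Vale.Agent.P232.GapPair
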