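import Vale.Agent.P232.GapPair.Check
import Vale.Agent.P232.CertSound
import Vale.Agent.P232.Couple

/-!
# P232: piecewise linear envelopes

A checked list of nodes gives an envelope of the coupling above the line `H x + C`, whose second
weight is the linear interpolant of the nodes.
-/

namespace Vale.Agent.P232.GapPair

noncomputable section

open Real MeasureTheory Set

/-- A polynomial lower bound for the calibrated band length with small tilt. -/
lemma bandC_ge₂ {k : ℝ} (hk : k ∈ Icc (0 : ℝ) (49 / 100)) :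
    1 - k ^ 2 / 6 - k ^ 4 / 35 ≤ bandC k := by
  have hk1 : k ∈ Icc (0 : ℝ) 1 := ⟨hk.1, hk.2.trans (by norm_num)⟩
  have e : ∫ t in (0 : ℝ)..1,
      (1 - (2 * k * (t - 1 / 2)) ^ 2 / 2 - (2 * k * (t - 1 / 2)) ^ 4 / 7) =
        1 - k ^ 2 / 6 - k ^ 4 / 35 := by
    have a2 : ∫ t in (0 : ℝ)..1, (t - 1 / 2) ^ 2 = 1 / 12 := by
      rw [intervalIntegral.integral_comp_sub_right (fun t => t ^ 2) (1 / 2), integral_pow]
      norm_num
    have a4 : ∫ t in (0 : ℝ)..1, (t - 1 / 2) ^ 4 = 1 / 80 := by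
      rw [intervalIntegral.integral_comp_sub_right (fun t => t ^ 4) (1 / 2), integral_pow]
      norm_num
    have r : (fun t : ℝ => 1 - (2 * k * (t - 1 / 2)) ^ 2 / 2 - (2 * k * (t - 1 / 2)) ^ 4 / 7) =
        fun t => 1 - 2 * k ^ 2 * (t - 1 / 2) ^ 2 - 16 / 7 * k ^ 4 * (t - 1 / 2) ^ 4 := by
      funext t; ring
    rw [r, intervalIntegral.integral_sub, intervalIntegral.integral_sub,
      intervalIntegral.integral_const_mul, intervalIntegral.integral_const_mul, a2, a4]
    · simp; ring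
    all_goals apply Continuous.intervalIntegrable; fun_prop
  rw [bandC, ← e]
  refine intervalIntegral.integral_mono_on zero_le_one
    (by apply Continuous.intervalIntegrable; fun_prop)
    (by apply Continuous.intervalIntegrable; fun_prop) fun t ht => ?_
  have h1 : (2 * k * (t - 1 / 2)) ^ 2 ≤ (49 / 100) ^ 2 := by
    have hu : |2 * k * (t - 1 / 2)| ≤ 49 / 100 := by
      rw [abs_le]; constructor <;> nlinarith [hk.1, hk.2, ht.1, ht.2]
    exact sq_le_sq.2 (by rwa [abs_of_pos (show (0 : ℝ) < 49 / 100 by norm_num)])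
  set q := (2 * k * (t - 1 / 2)) ^ 2 with hq
  have h0 : 0 ≤ q := sq_nonneg _
  have e4 : (2 * k * (t - 1 / 2)) ^ 4 = q ^ 2 := by rw [hq]; ring
  rw [e4]
  refine Real.le_sqrt_of_sq_le ?_
  nlinarith [mul_nonneg (sq_nonneg q)
    (show 0 ≤ 1 / 28 - q / 7 - q ^ 2 / 49 by nlinarith)]

/-- A pair of weights with a witness is an envelope of the coupling. -/
lemma env_of_witness {lam α β μ : ℝ} (hμ : 1 < μ)
    (h : α ^ 2 * (μ - 1) + β ^ 2 * μ ≤ 4 * μ * (μ - 1) * (lam - μ)) {s : ℝ}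
    (hs : s ∈ Icc (0 : ℝ) 1) : α * √(1 - s) + β * √s ≤ lam - s := by
  set p := √(1 - s)
  set q := √s
  have hp : p ^ 2 = 1 - s := Real.sq_sqrt (by linarith [hs.2])
  have hq : q ^ 2 = s := Real.sq_sqrt hs.1
  have h1 : α * p ≤ μ * p ^ 2 + α ^ 2 / (4 * μ) := by
    have : 0 ≤ (2 * μ * p - α) ^ 2 / (4 * μ) := by positivity
    have e : (2 * μ * p - α) ^ 2 / (4 * μ) = μ * p ^ 2 + α ^ 2 / (4 * μ) - α * p := by
      field_simp; ring
    linarith
  have h2 : β * q ≤ (μ - 1) * q ^ 2 + β ^ 2 / (4 * (μ - 1)) := by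
    have hm : 0 < μ - 1 := sub_pos.2 hμ
    have : 0 ≤ (2 * (μ - 1) * q - β) ^ 2 / (4 * (μ - 1)) := by positivity
    have e : (2 * (μ - 1) * q - β) ^ 2 / (4 * (μ - 1)) =
        (μ - 1) * q ^ 2 + β ^ 2 / (4 * (μ - 1)) - β * q := by
      field_simp; ring
    linarith
  have h3 : α ^ 2 / (4 * μ) + β ^ 2 / (4 * (μ - 1)) ≤ lam - μ := by
    rw [div_add_div _ _ (by linarith) (by linarith), div_le_iff₀ (by nlinarith)]
    nlinarith
  rw [hp] at h1
  rw [hq] at h2
  linarith

/-- The weights `α`, `β` are an envelope at `x`, above the line, with a value `g` of the profile. -/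
def EAt (lam κ H C M x α β g : ℝ) : Prop :=
  0 ≤ α ∧ α ≤ M ∧ 0 ≤ β ∧ 0 ≤ g ∧ g ^ 2 ≤ π * x ∧ g ^ 2 ≤ π * (1 - x) ∧ g ≤ bandC κ + κ * x ∧
    (∀ s ∈ Icc (0 : ℝ) 1, α * √(1 - s) + β * √s ≤ lam - s) ∧ H * x + C ≤ α * g

lemma eat_of_node {lam k : ℕ} {H C : ℤ} {M : ℕ} {p : Node} (hk' : k ≤ 4900000)
    (h : nodeE lam k H C M p = true) :
    EAt (sc lam) (sc k) (sc H) (sc C) (sc M) (sc p.x) (sc p.al) (sc p.be) (sc p.g) := by
  simp only [nodeE, Bool.and_eq_true, Nat.ble_eq, decide_eq_true_eq] at h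
  obtain ⟨⟨⟨⟨⟨⟨⟨⟨x1, a1⟩, g1⟩, g2⟩, g3⟩, m1⟩, m3⟩, m2⟩, l1⟩ := h
  have r1 : (p.x : ℝ) ≤ 10000000 := by exact_mod_cast x1
  have s1 : (p.g : ℝ) * p.g ≤ 31415926 * p.x := by exact_mod_cast g1
  have s2 : (p.g : ℝ) * p.g ≤ 31415926 * (10000000 - p.x) := by
    have := (Nat.cast_le (α := ℝ)).2 g2
    rw [Nat.cast_mul, Nat.cast_mul, Nat.cast_sub x1] at this
    exact_mod_cast this
  have s3 : 210 * (p.g : ℝ) * 1000000000000000000000 + 35 * ((k : ℝ) * k) * 100000000000000 +
      6 * ((k : ℝ) * k * (k * k)) ≤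
      2100000000000000000000000000000 + 210 * (k : ℝ) * p.x * 100000000000000 := by exact_mod_cast g3
  have t1 : (10000001 : ℝ) ≤ p.mu := by exact_mod_cast m1
  have t2 : (p.al : ℝ) * p.al * (p.mu - 10000000) + (p.be : ℝ) * p.be * p.mu ≤
      4 * p.mu * (p.mu - 10000000) * (lam - p.mu) := by
    have := (Nat.cast_le (α := ℝ)).2 m2
    simp only [Nat.cast_add, Nat.cast_mul, Nat.cast_sub (show 10000000 ≤ p.mu by omega),
      Nat.cast_sub m3, Nat.cast_ofNat] at this
    exact this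
  have u1 : (H : ℝ) * p.x + C * 10000000 ≤ p.al * p.g := by exact_mod_cast l1
  have hp : (31415926 : ℝ) / 10000000 ≤ π := by linarith [Real.pi_gt_d20]
  have nn : ∀ n : ℕ, 0 ≤ sc n := fun n =>
    div_nonneg (Int.cast_nonneg (Int.natCast_nonneg n)) (by norm_num)
  have kk : sc k ∈ Icc (0 : ℝ) (49 / 100) := by
    refine ⟨nn k, ?_⟩
    have : (k : ℝ) ≤ 4900000 := by exact_mod_cast hk'
    simp only [sc, Int.cast_natCast]
    linarith
  refine ⟨nn _, sc_le (by exact_mod_cast a1), nn _, nn _, ?_, ?_, ?_,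
    fun s hs => env_of_witness (μ := sc p.mu) ?_ ?_ hs, ?_⟩
  · refine le_trans ?_ (mul_le_mul_of_nonneg_right hp (nn _))
    simp only [sc, Int.cast_natCast]; linarith
  · refine le_trans ?_ (mul_le_mul_of_nonneg_right hp (show (0 : ℝ) ≤ 1 - sc p.x by
      simp only [sc, Int.cast_natCast]; linarith))
    simp only [sc, Int.cast_natCast]; linarith
  · refine le_trans ?_ (add_le_add (bandC_ge₂ kk) le_rfl)
    simp only [sc, Int.cast_natCast]; linarith
  · simp only [sc, Int.cast_natCast]; linarith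
  · simp only [sc, Int.cast_natCast]; linarith
  · simp only [sc, Int.cast_natCast]; linarith

lemma EAt.interp {lam κ H C M x₀ x₁ α₀ α₁ β₀ β₁ g₀ g₁ x : ℝ}
    (h₀ : EAt lam κ H C M x₀ α₀ β₀ g₀) (h₁ : EAt lam κ H C M x₁ α₁ β₁ g₁)
    (hm : H * (x₀ + x₁) + 2 * C ≤ α₀ * g₁ + α₁ * g₀) (ha : x₀ ≤ x) (hb : x ≤ x₁) (hlt : x₀ < x₁) :
    ∃ α g, EAt lam κ H C M x α (β₀ + (x - x₀) * ((β₁ - β₀) / (x₁ - x₀))) g := by
  set τ := (x - x₀) / (x₁ - x₀) with hτ
  have hd : 0 < x₁ - x₀ := by linarith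
  have t0 : 0 ≤ τ := div_nonneg (by linarith) hd.le
  have t1 : τ ≤ 1 := by rw [hτ, div_le_one hd]; linarith
  have ex : x = (1 - τ) * x₀ + τ * x₁ := by rw [hτ]; field_simp; ring
  have ey : β₀ + (x - x₀) * ((β₁ - β₀) / (x₁ - x₀)) = (1 - τ) * β₀ + τ * β₁ := by
    rw [hτ]; field_simp; ring
  obtain ⟨a0, a1, b0, c0, d1, d2, d3, e0, l0⟩ := h₀
  obtain ⟨a0', a1', b0', c0', d1', d2', d3', e0', l0'⟩ := h₁
  have hu : 0 ≤ 1 - τ := by linarith
  refine ⟨(1 - τ) * α₀ + τ * α₁, (1 - τ) * g₀ + τ * g₁, ?_⟩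
  rw [ey, ex]
  have hg : ((1 - τ) * g₀ + τ * g₁) ^ 2 ≤ (1 - τ) * g₀ ^ 2 + τ * g₁ ^ 2 := by
    nlinarith [mul_nonneg (mul_nonneg hu t0) (sq_nonneg (g₀ - g₁))]
  refine ⟨by positivity, ?_, by positivity, by positivity, ?_, ?_, ?_, fun s hs => ?_, ?_⟩
  · linarith [mul_le_mul_of_nonneg_left a1 hu, mul_le_mul_of_nonneg_left a1' t0]
  · linarith [mul_le_mul_of_nonneg_left d1 hu, mul_le_mul_of_nonneg_left d1' t0]
  · linarith [mul_le_mul_of_nonneg_left d2 hu, mul_le_mul_of_nonneg_left d2' t0]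
  · linarith [mul_le_mul_of_nonneg_left d3 hu, mul_le_mul_of_nonneg_left d3' t0]
  · linarith [mul_le_mul_of_nonneg_left (e0 s hs) hu, mul_le_mul_of_nonneg_left (e0' s hs) t0]
  · linarith [mul_le_mul_of_nonneg_left l0 (mul_nonneg hu hu),
      mul_le_mul_of_nonneg_left l0' (mul_nonneg t0 t0),
      mul_le_mul_of_nonneg_left hm (mul_nonneg hu t0)]

/-- Below the profile with tilt `κ` in both directions. -/
lemma EAt.le_kfun {lam κ H C M x α β g : ℝ} (h : EAt lam κ H C M x α β g) :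
    H * x + C ≤ α * kfun κ κ x := by
  obtain ⟨a0, -, -, -, d1, d2, d3, -, l0⟩ := h
  refine l0.trans (mul_le_mul_of_nonneg_left ?_ a0)
  exact le_min (le_min (Real.le_sqrt_of_sq_le d1) d3) (le_min d3 (Real.le_sqrt_of_sq_le d2))

/-- The abscissae increase. -/
def Inc : List (ℤ × ℤ) → Prop
  | [] => True
  | [_] => True
  | p :: q :: r => p.1 < q.1 ∧ Inc (q :: r)

lemma pl_head' {p : ℤ × ℤ} {r : List (ℤ × ℤ)} (h : Inc (p :: r)) :
    pl (p :: r) (sc p.1) = sc p.2 := by
  cases r with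
  | nil => rfl
  | cons q r =>
    rw [pl, if_pos (sc_le h.1.le)]
    simp

lemma pl_cons' {p q : ℤ × ℤ} {r : List (ℤ × ℤ)} (h : Inc (q :: r)) (hpq : p.1 < q.1) {x : ℝ}
    (hx : sc q.1 ≤ x) : pl (p :: q :: r) x = pl (q :: r) x := by
  rw [pl]
  split_ifs with c
  · have e := le_antisymm c hx
    subst e
    rw [pl_head' h, mul_div_cancel₀ _ (sub_ne_zero.2 (sc_lt hpq).ne')]
    ring
  · rfl

lemma continuous_pl' : ∀ L : List (ℤ × ℤ), Inc L → Continuous (pl L)
  | [], _ => continuous_const (y := (0 : ℝ))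
  | [p], _ => continuous_const (y := sc p.2)
  | p :: q :: r, h => by
    refine Continuous.congr ?_ fun x => by rw [pl]
    refine Continuous.if_le (by fun_prop) (continuous_pl' (q :: r) h.2) continuous_id
      continuous_const fun x hx => ?_
    subst hx
    rw [pl_head' h.2, mul_div_cancel₀ _ (sub_ne_zero.2 (sc_lt h.1).ne')]
    ring

lemma lastX_ge' : ∀ (p : ℤ × ℤ) (r : List (ℤ × ℤ)), Inc (p :: r) → p.1 ≤ lastX p r
  | p, [], _ => le_refl _
  | p, q :: r, h => le_trans h.1.le (lastX_ge' q r h.2)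

lemma inc_left : ∀ (r : List (ℤ × ℤ)) (z : ℤ × ℤ), Inc (r ++ [z]) → Inc r
  | [], _, _ => trivial
  | [_], _, _ => trivial
  | p :: q :: r, z, h => ⟨h.1, inc_left (q :: r) z h.2⟩

lemma pl_append' : ∀ (p : ℤ × ℤ) (r : List (ℤ × ℤ)) (z : ℤ × ℤ), Inc (p :: (r ++ [z])) →
    ∀ x, sc p.1 ≤ x → x ≤ sc (lastX p r) → pl (p :: (r ++ [z])) x = pl (p :: r) x
  | p, [], z, h, x, hx, hx' => by
    have e : x = sc p.1 := le_antisymm hx' hx
    subst e
    exact pl_head' h
  | p, q :: r, z, h, x, hx, hx' => by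
    rw [List.cons_append] at h ⊢
    rw [pl, pl]
    split_ifs with c
    · rfl
    · exact pl_append' q r z h.2 x (le_of_lt (not_le.1 c)) hx'

lemma integral_pl' : ∀ (p : ℤ × ℤ) (r : List (ℤ × ℤ)), Inc (p :: r) →
    (∫ x in sc p.1..sc (lastX p r), pl (p :: r) x) = (trap2 (p :: r) : ℝ) / (2 * 10000000 ^ 2)
  | p, [], _ => by simp [lastX, trap2]
  | p, q :: r, h => by
    have hc := continuous_pl' (p :: q :: r) h
    rw [lastX, ← intervalIntegral.integral_add_adjacent_intervals (b := sc q.1)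
      (hc.intervalIntegrable _ _) (hc.intervalIntegrable _ _)]
    have e1 : (∫ x in sc p.1..sc q.1, pl (p :: q :: r) x) =
        ∫ x in sc p.1..sc q.1,
          (sc p.2 + (x - sc p.1) * ((sc q.2 - sc p.2) / (sc q.1 - sc p.1))) := by
      refine intervalIntegral.integral_congr fun x hx => ?_
      rw [Set.uIcc_of_le (sc_le h.1.le)] at hx
      simp only [pl, if_pos hx.2]
    have e2 : (∫ x in sc q.1..sc (lastX q r), pl (p :: q :: r) x) =
        ∫ x in sc q.1..sc (lastX q r), pl (q :: r) x := by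
      refine intervalIntegral.integral_congr fun x hx => ?_
      rw [Set.uIcc_of_le (sc_le (lastX_ge' q r h.2))] at hx
      exact pl_cons' h.2 h.1 hx.1
    rw [e1, e2, integral_pl' q r h.2]
    have hne : sc q.1 - sc p.1 ≠ 0 := sub_ne_zero.2 (sc_lt h.1).ne'
    rw [intervalIntegral.integral_add intervalIntegrable_const
      (by apply Continuous.intervalIntegrable; fun_prop), intervalIntegral.integral_const,
      intervalIntegral.integral_mul_const, intervalIntegral.integral_sub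
      (by apply Continuous.intervalIntegrable; fun_prop) intervalIntegrable_const,
      integral_id, intervalIntegral.integral_const]
    simp only [trap2, smul_eq_mul, Int.cast_add, Int.cast_mul, Int.cast_sub]
    field_simp
    simp only [sc]
    ring

lemma inc_proj {lam k : ℕ} {H C : ℤ} {M : ℕ} : ∀ ns : List Node, chainE lam k H C M ns = true → Inc (proj ns)
  | [], _ => trivial
  | [_], _ => trivial
  | p :: q :: r, h => by
    simp only [chainE, segE, Bool.and_eq_true, Nat.ble_eq, decide_eq_true_eq] at h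
    exact ⟨Int.ofNat_lt.2 h.1.2.1, inc_proj (q :: r) h.2⟩

/-- On the whole range of a checked list the interpolant is part of an envelope above the line. -/
lemma eat_pl {lam k : ℕ} {H C : ℤ} {M : ℕ} (hk' : k ≤ 4900000) :
    ∀ (p : Node) (r : List Node), chainE lam k H C M (p :: r) = true → ∀ x, sc p.x ≤ x →
      x ≤ sc (lastX ((p.x : ℤ), (p.be : ℤ)) (proj r)) →
      ∃ α g, EAt (sc lam) (sc k) (sc H) (sc C) (sc M) x α (pl (proj (p :: r)) x) g
  | p, [], h, x, hx, hx' => by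
    have e : x = sc p.x := le_antisymm hx' hx
    subst e
    exact ⟨_, _, eat_of_node hk' h⟩
  | p, q :: r, h, x, hx, hx' => by
    have hi := inc_proj _ h
    simp only [chainE, segE, Bool.and_eq_true, Nat.ble_eq, decide_eq_true_eq] at h
    obtain ⟨⟨hp, hlt, hm⟩, hr⟩ := h
    replace hlt : (p.x : ℤ) < q.x := Int.ofNat_lt.2 hlt
    simp only [proj, List.map_cons] at hx' hi ⊢
    rcases le_total x (sc q.x) with c | c
    · have hq : nodeE lam k H C M q = true := by
        cases r with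
        | nil => exact hr
        | cons z r =>
          simp only [chainE, Bool.and_eq_true] at hr
          exact hr.1.1
      rw [pl, if_pos c]
      refine (eat_of_node hk' hp).interp (eat_of_node hk' hq) ?_ hx c (sc_lt hlt)
      have u : (H : ℝ) * (p.x + q.x) + 2 * C * 10000000 ≤ p.al * q.g + q.al * p.g := by
        exact_mod_cast hm
      simp only [sc, Int.cast_natCast]
      linarith
    · rw [pl_cons' hi.2 hi.1 c]
      exact eat_pl hk' q r hr x c hx'

/-- What a checked envelope gives for the coupled bound of an axis. -/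
lemma env_calib {lam k : ℕ} {H C : ℤ} {M : ℕ} {f0 f1 a0 a1 : ℤ} {p₀ p₁ : Node} {ns : List Node}
    (hk' : k ≤ 4900000)
    (hc : chainE lam k H C M (p₀ :: (ns ++ [p₁])) = true) (hs : spanOk f1 a0 (proj ns) = true)
    (h0 : (p₀.x : ℤ) = f0) (h1 : (p₁.x : ℤ) = a1) {v f a Q Y : ℝ} (hf : sc f0 ≤ f) (hf' : f ≤ sc f1)
    (ha : sc a0 ≤ a) (ha' : a ≤ sc a1) (hfa : f ≤ a)
    (hP : LowE (kfun (sc k) (sc k)) (sc lam) v f a Q Y) :
    sc H * v + sc C + (trap2 (proj ns) : ℝ) / (2 * 10000000 ^ 2) ≤ Q + sc M * Y := by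
  classical
  have hinc := inc_proj _ hc
  have e : proj (p₀ :: (ns ++ [p₁])) = (f0, (p₀.be : ℤ)) :: (proj ns ++ [(a1, (p₁.be : ℤ))]) := by
    simp [proj, h0, h1]
  rw [e] at hinc
  set L := (f0, (p₀.be : ℤ)) :: (proj ns ++ [(a1, (p₁.be : ℤ))]) with hL
  have hex : ∀ x ∈ Icc f a, ∃ α g,
      EAt (sc lam) (sc k) (sc H) (sc C) (sc M) x α (pl L x) g := fun x hx => by
    rw [← e]
    refine eat_pl hk' _ _ hc x (by rw [h0]; exact hf.trans hx.1) ?_
    rw [show proj (ns ++ [p₁]) = proj ns ++ [((p₁.x : ℤ), (p₁.be : ℤ))] by simp [proj], lastX_append, h1]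
    exact hx.2.trans ha'
  have hcont := continuous_pl' L hinc
  set α : ℝ → ℝ := fun x => if hx : x ∈ Icc f a then (hex x hx).choose else 0 with hα
  have main := hP (sc H) (sc C) (sc M) α (pl L) hcont.continuousOn fun x hx => by
    have hg := (hex x hx).choose_spec.choose_spec
    rw [hα]
    simp only [dif_pos hx]
    exact ⟨hg.1, hg.2.1, hg.2.2.1, hg.le_kfun, hg.2.2.2.2.2.2.2.1⟩
  suffices (trap2 (proj ns) : ℝ) / (2 * 10000000 ^ 2) ≤ ∫ x in f..a, pl L x by linarith
  have hb : ∀ x ∈ Icc f a, 0 ≤ pl L x := fun x hx => (hex x hx).choose_spec.choose_spec.2.2.1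
  have hpos : 0 ≤ ∫ x in f..a, pl L x := intervalIntegral.integral_nonneg hfa hb
  generalize proj ns = ms at hs hinc hL hpos ⊢
  cases ms with
  | nil => simpa [trap2] using hpos
  | cons p r =>
    simp only [spanOk, decide_eq_true_eq] at hs
    rw [hL, List.cons_append] at hinc
    have hc' : Inc (p :: r) := inc_left (p :: r) _ (by rw [List.cons_append]; exact hinc.2)
    have hle : f1 ≤ a0 := by rw [← hs.1, ← hs.2]; exact lastX_ge' p r hc'
    have e : (∫ x in sc f1..sc a0, pl L x) = (trap2 (p :: r) : ℝ) / (2 * 10000000 ^ 2) := by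
      rw [← integral_pl' p r hc', hs.1, hs.2]
      refine intervalIntegral.integral_congr fun x hx => ?_
      rw [Set.uIcc_of_le (sc_le hle)] at hx
      rw [hL, List.cons_append, pl_cons' hinc.2 hinc.1 (by rw [hs.1]; exact hx.1)]
      exact pl_append' p r _ hinc.2 x (by rw [hs.1]; exact hx.1) (by rw [hs.2]; exact hx.2)
    rw [← e]
    refine intervalIntegral.integral_mono_interval hf' (sc_le hle) ha ?_
      (hcont.intervalIntegrable _ _)
    filter_upwards [ae_restrict_mem measurableSet_Ioc] with x hx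
    exact hb x ⟨hx.1.le, hx.2⟩

end

end Vale.Agent.P232.GapPair
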