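import Vale.Agent.P232.GapPair.Sound
import Vale.Agent.P232.GapPair.Bin0.Tree
import Vale.Agent.P232.GapPair.Bin1.Tree
import Vale.Agent.P232.GapPair.Bin2.Tree
import Vale.Agent.P232.GapPair.Bin3.Tree
import Vale.Agent.P232.GapPair.Bin4.Tree
import Vale.Agent.P232.GapPair.Bin5.Tree
import Vale.Agent.P232.GapPair.Bin6.Tree
import Vale.Agent.P232.GapPair.Bin7.Tree
import Vale.Agent.P232.GraphCertFinal
import Vale.Agent.P232.Gap.TwoSmall
import Vale.Agent.P232.Gap.Main

/-!
# P232: one small axis

Eight intervals of volumes cover `[0.263, 0.323]`; on each, a checked tree gives the bound when one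
least slice area is at most `1/2500` and the other two are at least `1/20`, away from the tube.
-/

namespace Vale.Agent.P232.GapPair

noncomputable section

open Set

/-- The graph certificate in the form used by the trees. -/
theorem graphRows : GraphRows := fun v τ A W P => graph_rows v τ A W P

/-- One small axis, away from the tube. -/
theorem one_small {v P η : ℝ} {f a S : Fin 3 → ℝ} (hv : v ∈ Icc (263 / 1000 : ℝ) (323 / 1000))
    (hη : 0 ≤ η) (D : Data 100 v P η f a S) {i : Fin 3} (hi : f i ≤ 1 / 2500)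
    (hy : 1 / 20 ≤ f (i + 1)) (hz : 1 / 20 ≤ f (i + 2)) (ha : 48 / 100 ≤ a i) (ha' : a i ≤ 4 / 5)
    (hT : ∀ n, 6 / 1000 < a n - f n) : goalF v + 1 / 10 ^ 8 ≤ P + η := by
  have key : ∀ {B : VBin} {items : List Item} {T : PTree}, PTree.ok B items T = true →
      sc B.v0 ≤ v → v ≤ sc B.v1 → goalF v + 1 / 10 ^ 8 ≤ P + η :=
    fun h h0 h1 => bin_sound graphRows h h0 h1 hη D hi hy hz ha ha' hT
  obtain ⟨v0, v1⟩ := hv
  have e : ∀ n : ℤ, sc n = (n : ℝ) / 10000000 := fun n => rfl
  rcases le_total v (sc 2800000) with c1 | c1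
  · exact key Bin0.tree_ok (by simp only [Bin0.bin, e]; push_cast; linarith) c1
  rcases le_total v (sc 2900000) with c2 | c2
  · exact key Bin1.tree_ok c1 c2
  rcases le_total v (sc 3000000) with c3 | c3
  · exact key Bin2.tree_ok c2 c3
  rcases le_total v (sc 3080000) with c4 | c4
  · exact key Bin3.tree_ok c3 c4
  rcases le_total v (sc 3135000) with c5 | c5
  · exact key Bin4.tree_ok c4 c5
  rcases le_total v (sc 3183099) with c6 | c6
  · exact key Bin5.tree_ok c5 c6
  rcases le_total v (sc 3205000) with c7 | c7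
  · exact key Bin6.tree_ok c6 c7
  exact key Bin7.tree_ok c7 (by simp only [Bin7.bin, e]; push_cast; linarith)

/-- One small axis, as the case split of the window needs it. -/
theorem oneSmall_case : Gap.OneSmallCase 100 := by
  intro v P η f a S hv hη D i hs hy hz
  rw [Gap.small_iff] at hs
  by_cases hT : ∀ n, 6 / 1000 < a n - f n
  · exact Or.inl (one_small hv hη D hs.2.1 hy hz hs.2.2.2.1 hs.2.2.2.2 hT)
  · push Not at hT
    exact Or.inr (Or.inl ⟨⟨by linarith [hv.1], by linarith [hv.2]⟩, hT⟩)

/-- The middle window. -/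
theorem strict_window : StrictWindow 100 (263 / 1000) (323 / 1000) :=
  Gap.window (Gap.twoSmall_case 100) oneSmall_case

end

end Vale.Agent.P232.GapPair
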