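import Vale.Agent.P232.GapPair.Env
import Vale.Agent.P232.Window

/-!
# P232: what a checked tree for one small axis proves
-/

namespace Vale.Agent.P232.GapPair

noncomputable section

open Real MeasureTheory Set

/-- What the tree uses of the graph certificate. -/
def GraphRows : Prop :=
  ∀ v τ A W P : ℝ, 0 ≤ v → 0 ≤ τ → 0 ≤ W → W ≤ 1 → A ≤ 99999 / 100000 →
    (∃ r ∈ rows, sc r.1 ≤ A ∧ sc r.2 ≤ τ) →
    (∀ W₀ W₁, W₀ ≤ W → W ≤ W₁ → 1 / 10 ≤ W₁ →
      LowT 100 (gW W₀ W₁) (gLow W₀ W₁) v τ A P) →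
    min 1 √(π * v) + 5 / 10000 ≤ P

/-- The line on the interval of volumes with the scaled values `T0`, `T1` at its ends. -/
def lin (B : VBin) (T0 T1 : ℤ) (v : ℝ) : ℝ :=
  sc T0 + (v - sc B.v0) * ((sc T1 - sc T0) / (sc B.v1 - sc B.v0))

/-- Two inequalities at the ends give one inside. -/
lemma lin_le {B : VBin} {T0 T1 : ℤ} {H K v : ℝ} (hB : B.v0 < B.v1) (h0 : sc B.v0 ≤ v)
    (h1 : v ≤ sc B.v1) (e0 : sc T0 ≤ H * sc B.v0 + K) (e1 : sc T1 ≤ H * sc B.v1 + K) :
    lin B T0 T1 v ≤ H * v + K := by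
  have hd : 0 < sc B.v1 - sc B.v0 := sub_pos.2 (sc_lt hB)
  set τ := (v - sc B.v0) / (sc B.v1 - sc B.v0) with hτ
  have t0 : 0 ≤ τ := div_nonneg (by linarith) hd.le
  have t1 : τ ≤ 1 := by rw [hτ, div_le_one hd]; linarith
  have e : lin B T0 T1 v = (1 - τ) * sc T0 + τ * sc T1 := by
    rw [hτ, lin]; field_simp; ring
  have ev : v = (1 - τ) * sc B.v0 + τ * sc B.v1 := by rw [hτ]; field_simp; ring
  rw [e, ev]
  linarith [mul_le_mul_of_nonneg_left e0 (sub_nonneg.2 t1), mul_le_mul_of_nonneg_left e1 t0]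

/-- The line of an interval of volumes is above the goal. -/
lemma goal_le {B : VBin} (h : B.ok = true) {v : ℝ} (h0 : sc B.v0 ≤ v) (h1 : v ≤ sc B.v1) :
    goalF v + 1 / 10 ^ 7 ≤ lin B B.U0 B.U1 v := by
  replace h := of_decide_eq_true h
  simp only [scale] at h
  obtain ⟨n0, n1, -, hc⟩ := h
  have hd : 0 < sc B.v1 - sc B.v0 := sub_pos.2 (sc_lt n1)
  set τ := (v - sc B.v0) / (sc B.v1 - sc B.v0) with hτ
  have t0 : 0 ≤ τ := div_nonneg (by linarith) hd.le
  have t1 : τ ≤ 1 := by rw [hτ, div_le_one hd]; linarith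
  have e : lin B B.U0 B.U1 v = (1 - τ) * sc B.U0 + τ * sc B.U1 := by
    rw [hτ, lin]; field_simp; ring
  have ev : v = (1 - τ) * sc B.v0 + τ * sc B.v1 := by rw [hτ]; field_simp; ring
  rw [e]
  have hv : 0 ≤ v := le_trans (div_nonneg (Int.cast_nonneg n0) (by norm_num)) h0
  rcases hc with ⟨u0, u1⟩ | ⟨r0, u0, u1⟩
  · have a0 : (10000000 : ℝ) + 1 ≤ B.U0 := by exact_mod_cast u0
    have a1 : (10000000 : ℝ) + 1 ≤ B.U1 := by exact_mod_cast u1
    have b0 : 1 + 1 / 10 ^ 7 ≤ sc B.U0 := by simp only [sc]; linarith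
    have b1 : 1 + 1 / 10 ^ 7 ≤ sc B.U1 := by simp only [sc]; linarith
    have hg : goalF v ≤ 1 := min_le_right _ _
    linarith [mul_le_mul_of_nonneg_left b0 (sub_nonneg.2 t1), mul_le_mul_of_nonneg_left b1 t0]
  · set R := sc B.r with hR
    have rp : 0 < R := div_pos (by exact_mod_cast r0) (by norm_num)
    have a0 : 31415927 * (B.v0 : ℝ) + (B.r : ℝ) ^ 2 ≤ 2 * B.r * (B.U0 - 1) := by exact_mod_cast u0
    have a1 : 31415927 * (B.v1 : ℝ) + (B.r : ℝ) ^ 2 ≤ 2 * B.r * (B.U1 - 1) := by exact_mod_cast u1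
    have b0 : 31415927 / 10000000 * sc B.v0 + R ^ 2 ≤ 2 * R * (sc B.U0 - 1 / 10 ^ 7) := by
      simp only [hR, sc]; linarith
    have b1 : 31415927 / 10000000 * sc B.v1 + R ^ 2 ≤ 2 * R * (sc B.U1 - 1 / 10 ^ 7) := by
      simp only [hR, sc]; linarith
    have hg : goalF v ≤ √(π * v) := (min_le_left _ _).trans (min_le_right _ _)
    have hpi : π * v ≤ 31415927 / 10000000 * v :=
      mul_le_mul_of_nonneg_right (by linarith [Real.pi_lt_d20]) hv
    have hs : √(π * v) ^ 2 = π * v := Real.sq_sqrt (mul_nonneg Real.pi_pos.le hv)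
    have key : 2 * R * √(π * v) ≤
        2 * R * ((1 - τ) * sc B.U0 + τ * sc B.U1 - 1 / 10 ^ 7) := by
      nlinarith [mul_le_mul_of_nonneg_left b0 (sub_nonneg.2 t1), mul_le_mul_of_nonneg_left b1 t0,
        sq_nonneg (√(π * v) - R)]
    linarith [le_of_mul_le_mul_left key (by linarith)]

/-- What a checked tree of an item proves. -/
lemma atree_sound {B : VBin} (hB : B.ok = true) {I : Item} (hk' : I.k ≤ 4900000)
    {v f a P Q Y : ℝ} (h0 : sc B.v0 ≤ v) (h1 : v ≤ sc B.v1) (hf : sc I.f0 ≤ f)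
    (hf' : f ≤ sc I.f1) (hfv : f ≤ v) (hva : v ≤ a) (hY : 0 ≤ Y)
    (hP : Low gfun v f a P) (hQ : LowE (kfun (sc I.k) (sc I.k)) (sc I.lam) v f a Q Y) :
    ∀ (T : ATree) (a0 a1 : ℤ), T.check B I a0 a1 = true → sc a0 ≤ a → a ≤ sc a1 →
      goalF v + 1 / 10 ^ 7 ≤ P ∨ lin B I.T0 I.T1 v ≤ Q + sc I.M * Y
  | .base H C ns, a0, a1, h, ha, ha' => by
    simp only [ATree.check, Bool.and_eq_true, decide_eq_true_eq] at h
    obtain ⟨hl, e0, e1⟩ := h
    simp only [GapSlab.leafOk, Bool.and_eq_true, decide_eq_true_eq] at hl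
    obtain ⟨⟨hd, hs⟩, hc⟩ := hl
    have main := leaf_calib hd hs hc hf hf' ha ha' (hfv.trans hva) hP
    refine Or.inl ((goal_le hB h0 h1).trans (le_trans ?_ main))
    have n1 : B.v0 < B.v1 := (of_decide_eq_true hB).2.1
    refine (lin_le (H := sc H) (K := sc C + (trap2 ns : ℝ) / (2 * 10000000 ^ 2)) n1 h0 h1 ?_ ?_).trans_eq
      (by ring)
    · have := (Int.cast_le (R := ℝ)).2 e0
      simp only [scale] at this
      push_cast at this
      simp only [sc]; linarith
    · have := (Int.cast_le (R := ℝ)).2 e1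
      simp only [scale] at this
      push_cast at this
      simp only [sc]; linarith
  | .env H C M p₀ ns p₁, a0, a1, h, ha, ha' => by
    simp only [ATree.check, Bool.and_eq_true, decide_eq_true_eq] at h
    obtain ⟨⟨hc, hs⟩, q0, q1, hM, e0, e1⟩ := h
    have main := env_calib hk' hc hs q0 q1 hf hf' ha ha' (hfv.trans hva) hQ
    refine Or.inr (le_trans ?_ (main.trans (add_le_add le_rfl
      (mul_le_mul_of_nonneg_right (sc_le (by exact_mod_cast hM)) hY))))
    have n1 : B.v0 < B.v1 := (of_decide_eq_true hB).2.1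
    refine (lin_le (H := sc H) (K := sc C + (trap2 (proj ns) : ℝ) / (2 * 10000000 ^ 2))
      n1 h0 h1 ?_ ?_).trans_eq (by ring)
    · have := (Int.cast_le (R := ℝ)).2 e0
      simp only [scale] at this
      push_cast at this
      simp only [sc]; linarith
    · have := (Int.cast_le (R := ℝ)).2 e1
      simp only [scale] at this
      push_cast at this
      simp only [sc]; linarith
  | .cut m l r, a0, a1, h, ha, ha' => by
    simp only [ATree.check, Bool.and_eq_true] at h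
    rcases le_total a (sc m) with c | c
    · exact atree_sound hB hk' h0 h1 hf hf' hfv hva hY hP hQ l _ _ h.1 ha c
    · exact atree_sound hB hk' h0 h1 hf hf' hfv hva hY hP hQ r _ _ h.2 c ha'

/-- What a checked item proves about an axis. -/
lemma item_sound {B : VBin} (hB : B.ok = true) {I : Item} (hI : I.ok B = true) {L v P : ℝ}
    {f a S : Fin 3 → ℝ} {i : Fin 3} (h0 : sc B.v0 ≤ v) (h1 : v ≤ sc B.v1)
    (D : AxData L v P f a S i) (hf : sc I.f0 ≤ f i) (hf' : f i ≤ sc I.f1) (ha : sc I.a0 ≤ a i)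
    (ha' : a i ≤ sc I.a1) (hp : 0 ≤ f (i + 1) + f (i + 2)) :
    goalF v + 1 / 10 ^ 7 ≤ P ∨
      lin B I.T0 I.T1 v ≤ sc I.lam * P - S i + sc I.M * (sc I.k * (f (i + 1) + f (i + 2))) := by
  simp only [Item.ok, Bool.and_eq_true, decide_eq_true_eq] at hI
  obtain ⟨⟨hl, hk'⟩, ht⟩ := hI
  have k0 : 0 ≤ sc I.k := div_nonneg (Int.cast_nonneg (Int.natCast_nonneg _)) (by norm_num)
  have k1 : sc I.k ≤ 1 := by
    have : (I.k : ℝ) ≤ 4900000 := by exact_mod_cast hk'
    simp only [sc, Int.cast_natCast]; linarith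
  have l1 : 1 ≤ sc I.lam := by
    rw [sc, le_div_iff₀ (by norm_num), one_mul]
    exact_mod_cast hl
  exact atree_sound hB hk' h0 h1 hf hf' D.f_le D.le_a
    (mul_nonneg k0 hp) D.base
    (by rw [mul_add]; exact D.env _ _ ⟨k0, k1⟩ ⟨k0, k1⟩ _ l1) _ _ _ ht ha ha'

lemma rows_real {x t : ℤ} (h : rowOk x t = true) {A τ : ℝ} (hA : sc x ≤ A) (hτ : sc t ≤ τ) :
    ∃ r ∈ rows, sc r.1 ≤ A ∧ sc r.2 ≤ τ := by
  simp only [rowOk, List.any_eq_true, decide_eq_true_eq] at h
  obtain ⟨r, hr, h0, h1⟩ := h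
  exact ⟨r, hr, (sc_le h0).trans hA, (sc_le h1).trans hτ⟩

/-- The graph leaf. -/
lemma graph_sound (hG : GraphRows) {v P : ℝ} {f a S : Fin 3 → ℝ} {i : Fin 3} {x t : ℤ}
    (hv : 0 ≤ v) (D : AxData 100 v P f a S i) (hfi : f i ≤ 1 / 2500) (hai : a i ≤ 19 / 20)
    (hr : rowOk x t = true) (hx : sc x ≤ a i) {τ : ℝ} (hτ : sc t ≤ τ) (hτ0 : 0 ≤ τ)
    (h1 : τ ≤ f (i + 1)) (h2 : τ ≤ f (i + 2)) : goalF v + 1 / 10 ^ 8 ≤ P := by
  have g0 : goalF v ≤ min 1 √(π * v) :=
    le_min (min_le_right _ _) ((min_le_left _ _).trans (min_le_right _ _))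
  obtain ⟨A, W, hA, hA1, hW, hW1, hT, hTop⟩ := D.graph
  rcases le_or_gt A (99999 / 100000) with c | c
  · have := hG v τ A W (P + f i) hv hτ0 hW hW1 c (rows_real hr (hx.trans hA) hτ)
      fun W₀ W₁ q0 q1 q2 => hT W₀ W₁ q0 q1 q2 τ hτ0 h1 h2
    linarith
  · rcases le_or_gt (3 / 10) v with cv | cv
    · linarith [hTop hai cv c.le, g0.trans (min_le_left 1 √(π * v))]
    · have hs : √(π * v) ≤ 971 / 1000 := by
        rw [Real.sqrt_le_left (by norm_num)]
        nlinarith [Real.pi_lt_d20, Real.pi_pos]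
      have := hT 0 1 hW hW1 (by norm_num) τ hτ0 h1 h2 0 0 0 (fun _ => 1) (by norm_num) (by norm_num)
        (by norm_num) le_rfl (fun p _ q _ => by simp [mul_nonneg])
        (fun p _ => ⟨zero_le_one, le_rfl, by simp, by simp⟩)
      simp at this
      linarith [g0.trans (min_le_right 1 √(π * v))]

/-- What a checked tree proves, for one ordering of the axes. -/
lemma ptree_sound (hG : GraphRows) {B : VBin} (hB : B.ok = true) {items : List Item}
    (hI : items.all (Item.ok B) = true) {v P η : ℝ} {f a S : Fin 3 → ℝ} {i j l : Fin 3}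
    (h0 : sc B.v0 ≤ v) (h1 : v ≤ sc B.v1) (hη : 0 ≤ η)
    (D : ∀ n, AxData 100 v P f a S n) (hS : P - η ≤ S i + S j + S l)
    (ei : f (i + 1) + f (i + 2) = f j + f l) (ej : f (j + 1) + f (j + 2) = f i + f l)
    (el : f (l + 1) + f (l + 2) = f i + f j)
    (et : ∀ t, t ≤ f j → t ≤ f l → t ≤ f (i + 1) ∧ t ≤ f (i + 2)) (hi : f i ≤ 1 / 2500)
    (hjl : f j ≤ f l) (hT : ∀ n, 6 / 1000 < a n - f n) :
    ∀ (T : PTree) (x0 x1 y0 y1 z0 z1 : ℤ), T.check B items x0 x1 y0 y1 z0 z1 = true →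
      sc x0 ≤ a i → a i ≤ sc x1 → sc y0 ≤ f j → f j ≤ sc y1 → sc z0 ≤ f l → f l ≤ sc z1 →
      goalF v + 1 / 10 ^ 8 ≤ P + η
  | .base H C ns, x0, x1, y0, y1, z0, z1, h, hx, hx', _, _, _, _ => by
    simp only [PTree.check, Bool.and_eq_true, decide_eq_true_eq] at h
    obtain ⟨hl, e0, e1⟩ := h
    simp only [GapSlab.leafOk, Bool.and_eq_true, decide_eq_true_eq] at hl
    obtain ⟨⟨hd, hs⟩, hc⟩ := hl
    have main := leaf_calib hd hs hc (f := f i) (by norm_num [sc]; exact (D i).f_nonneg)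
      (by norm_num [sc]; linarith) hx hx' ((D i).f_le.trans (D i).le_a) (D i).base
    have n1 : B.v0 < B.v1 := (of_decide_eq_true hB).2.1
    have hlin : lin B B.U0 B.U1 v ≤
        sc H * v + (sc C + (trap2 ns : ℝ) / (2 * 10000000 ^ 2)) := by
      refine lin_le n1 h0 h1 ?_ ?_
      · have := (Int.cast_le (R := ℝ)).2 e0
        simp only [scale] at this
        push_cast at this
        simp only [sc]; linarith
      · have := (Int.cast_le (R := ℝ)).2 e1
        simp only [scale] at this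
        push_cast at this
        simp only [sc]; linarith
    linarith [goal_le hB h0 h1]
  | .graph, x0, x1, y0, y1, z0, z1, h, hx, hx', hy, _, hz, _ => by
    simp only [PTree.check, Bool.and_eq_true, decide_eq_true_eq] at h
    obtain ⟨h2, hr⟩ := h
    have r2 : (x1 : ℝ) ≤ 9500000 := by exact_mod_cast h2
    obtain ⟨t1, t2⟩ := et (f j) le_rfl hjl
    have := graph_sound hG ((D i).f_nonneg.trans (D i).f_le) (D i) hi
      (by simp only [sc] at hx'; linarith) hr hx hy (D j).f_nonneg t1 t2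
    linarith
  | .pair p q r, x0, x1, y0, y1, z0, z1, h, hx, hx', hy, hy', hz, hz' => by
    simp only [PTree.check, pairAt] at h
    split at h
    rotate_left
    · exact absurd h (by simp)
    rename_i I J K eI eJ eK
    rw [List.all_eq_true] at hI
    have oI := hI I (List.mem_of_getElem? eI)
    have oJ := hI J (List.mem_of_getElem? eJ)
    have oK := hI K (List.mem_of_getElem? eK)
    replace h := of_decide_eq_true h
    simp only [scale] at h
    obtain ⟨a1, a2, a3, a4, b1, b2, b3, b4, c1, c2, c3, c4, e0, e1⟩ := h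
    have f4 : f i ≤ sc 4000 := by norm_num [sc]; linarith
    have n1 : B.v0 < B.v1 := (of_decide_eq_true hB).2.1
    have top : ∀ n, a n ≤ sc 10000000 := fun n => by norm_num [sc]; exact (D n).a_le
    have low : ∀ (n : Fin 3) (m : ℤ), sc m ≤ f n → sc (max B.v0 (m + 60000)) ≤ a n := by
      intro n m hm
      rcases max_choice B.v0 (m + 60000) with e | e <;> rw [e]
      · exact h0.trans (D n).le_a
      · have := hT n
        simp only [sc] at hm ⊢
        push_cast
        linarith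
    have pos : ∀ n : Fin 3, 0 ≤ f (n + 1) + f (n + 2) := fun n =>
      add_nonneg (D _).f_nonneg (D _).f_nonneg
    have hi' := item_sound hB oI h0 h1 (D i)
      ((sc_le a1).trans (by norm_num [sc]; exact (D i).f_nonneg)) (f4.trans (sc_le a2))
      ((sc_le a3).trans hx) (hx'.trans (sc_le a4)) (pos i)
    have hj' := item_sound hB oJ h0 h1 (D j)
      ((sc_le b1).trans hy) (hy'.trans (sc_le b2)) ((sc_le b3).trans (low j y0 hy))
      ((top j).trans (sc_le b4)) (pos j)
    have hl' := item_sound hB oK h0 h1 (D l)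
      ((sc_le c1).trans hz) (hz'.trans (sc_le c2)) ((sc_le c3).trans (low l z0 hz))
      ((top l).trans (sc_le c4)) (pos l)
    rw [ei] at hi'
    rw [ej] at hj'
    rw [el] at hl'
    rcases hi' with g | g
    · linarith
    rcases hj' with g' | g'
    · linarith
    rcases hl' with g'' | g''
    · linarith
    simp only [Item.ok, Bool.and_eq_true, decide_eq_true_eq] at oI oJ oK
    have nk : ∀ m : ℕ, 0 ≤ sc m := fun m =>
      div_nonneg (Int.cast_nonneg (Int.natCast_nonneg m)) (by norm_num)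
    set WI := sc I.M * (sc I.k * (sc y1 + sc z1)) with hWI
    set WJ := sc J.M * (sc J.k * (sc z1 + sc 4000)) with hWJ
    set WK := sc K.M * (sc K.k * (sc y1 + sc 4000)) with hWK
    have lI : sc I.M * (sc I.k * (f j + f l)) ≤ WI :=
      mul_le_mul_of_nonneg_left (mul_le_mul_of_nonneg_left (add_le_add hy' hz') (nk I.k))
        (nk I.M)
    have lJ : sc J.M * (sc J.k * (f i + f l)) ≤ WJ :=
      mul_le_mul_of_nonneg_left (mul_le_mul_of_nonneg_left (by linarith) (nk J.k))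
        (nk J.M)
    have lK : sc K.M * (sc K.k * (f i + f j)) ≤ WK :=
      mul_le_mul_of_nonneg_left (mul_le_mul_of_nonneg_left (by linarith) (nk K.k))
        (nk K.M)
    set Λ := sc I.lam + sc J.lam + sc K.lam - 1 with hΛ
    have hΛ2 : 2 ≤ Λ := by
      have u : ∀ m : ℕ, 10000000 ≤ m → 1 ≤ sc m := fun m hm => by
        rw [sc, le_div_iff₀ (by norm_num), one_mul]
        exact_mod_cast hm
      linarith [u _ oI.1.1, u _ oJ.1.1, u _ oK.1.1]
    have hU : Λ * lin B B.U0 B.U1 v + (WI + WJ + WK) ≤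
        lin B I.T0 I.T1 v + lin B J.T0 J.T1 v + lin B K.T0 K.T1 v := by
      set τ := (v - sc B.v0) / (sc B.v1 - sc B.v0) with hτ
      have hd : 0 < sc B.v1 - sc B.v0 := sub_pos.2 (sc_lt n1)
      have t0 : 0 ≤ τ := div_nonneg (by linarith) hd.le
      have t1 : τ ≤ 1 := by rw [hτ, div_le_one hd]; linarith
      have e : ∀ T0 T1, lin B T0 T1 v = (1 - τ) * sc T0 + τ * sc T1 := fun T0 T1 => by
        rw [hτ, lin]; field_simp; ring
      have u0 : Λ * sc B.U0 + (WI + WJ + WK) ≤ sc I.T0 + sc J.T0 + sc K.T0 := by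
        have := (Int.cast_le (R := ℝ)).2 e0
        push_cast at this
        simp only [hΛ, hWI, hWJ, hWK, sc, Int.cast_natCast]; push_cast; linarith
      have u1 : Λ * sc B.U1 + (WI + WJ + WK) ≤ sc I.T1 + sc J.T1 + sc K.T1 := by
        have := (Int.cast_le (R := ℝ)).2 e1
        push_cast at this
        simp only [hΛ, hWI, hWJ, hWK, sc, Int.cast_natCast]; push_cast; linarith
      simp only [e]
      linarith [mul_le_mul_of_nonneg_left u0 (sub_nonneg.2 t1), mul_le_mul_of_nonneg_left u1 t0]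
    have hg := mul_le_mul_of_nonneg_left (goal_le hB h0 h1) (by linarith : 0 ≤ Λ)
    have hsum : Λ * (goalF v + 1 / 10 ^ 7) ≤ Λ * (P + η) := by
      nlinarith [mul_nonneg (by linarith : (0 : ℝ) ≤ Λ - 1) hη]
    linarith [le_of_mul_le_mul_left hsum (by linarith)]
  | .cutX m p q, x0, x1, y0, y1, z0, z1, h, hx, hx', hy, hy', hz, hz' => by
    simp only [PTree.check, Bool.and_eq_true] at h
    rcases le_total (a i) (sc m) with c | c
    · exact ptree_sound hG hB hI h0 h1 hη D hS ei ej el et hi hjl hT p _ _ _ _ _ _ h.1 hx c hy hy' hz hz'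
    · exact ptree_sound hG hB hI h0 h1 hη D hS ei ej el et hi hjl hT q _ _ _ _ _ _ h.2 c hx' hy hy' hz hz'
  | .cutY m p q, x0, x1, y0, y1, z0, z1, h, hx, hx', hy, hy', hz, hz' => by
    simp only [PTree.check, Bool.and_eq_true] at h
    rcases le_total (f j) (sc m) with c | c
    · exact ptree_sound hG hB hI h0 h1 hη D hS ei ej el et hi hjl hT p _ _ _ _ _ _ h.1 hx hx' hy c hz hz'
    · exact ptree_sound hG hB hI h0 h1 hη D hS ei ej el et hi hjl hT q _ _ _ _ _ _ h.2 hx hx' c hy' hz hz'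
  | .cutZ m p q, x0, x1, y0, y1, z0, z1, h, hx, hx', hy, hy', hz, hz' => by
    simp only [PTree.check, Bool.and_eq_true] at h
    rcases le_total (f l) (sc m) with c | c
    · exact ptree_sound hG hB hI h0 h1 hη D hS ei ej el et hi hjl hT p _ _ _ _ _ _ h.1 hx hx' hy hy' hz c
    · exact ptree_sound hG hB hI h0 h1 hη D hS ei ej el et hi hjl hT q _ _ _ _ _ _ h.2 hx hx' hy hy' c hz'
  | .empty, x0, x1, y0, y1, z0, z1, h, _, _, hy, _, _, hz' => by
    simp only [PTree.check, decide_eq_true_eq] at h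
    linarith [sc_lt h]

/-- A checked tree gives the bound on its interval of volumes. -/
theorem bin_sound (hG : GraphRows) {B : VBin} {items : List Item} {T : PTree}
    (h : PTree.ok B items T = true) {v P η : ℝ} {f a S : Fin 3 → ℝ}
    (h0 : sc B.v0 ≤ v) (h1 : v ≤ sc B.v1) (hη : 0 ≤ η) (D : Data 100 v P η f a S) {i : Fin 3}
    (hi : f i ≤ 1 / 2500) (hy : 1 / 20 ≤ f (i + 1)) (hz : 1 / 20 ≤ f (i + 2))
    (hai : 48 / 100 ≤ a i) (hai' : a i ≤ 4 / 5) (hT : ∀ n, 6 / 1000 < a n - f n) :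
    goalF v + 1 / 10 ^ 8 ≤ P + η := by
  simp only [PTree.ok, Bool.and_eq_true] at h
  obtain ⟨⟨hB, hI⟩, ht⟩ := h
  have hs := D.sum
  rw [Fin.sum_univ_three] at hs
  have hv : ∀ n, f n ≤ sc B.v1 := fun n => (D.ax n).f_le.trans h1
  have hxa : sc 4800000 ≤ a i := by norm_num [sc]; linarith
  have hxb : a i ≤ sc 8000000 := by norm_num [sc]; linarith
  have c : ∀ n, 1 / 20 ≤ f n → sc 500000 ≤ f n := fun n hn => by norm_num [sc]; exact hn
  have e3 : S i + S (i + 1) + S (i + 2) = S 0 + S 1 + S 2 := by fin_cases i <;> simp <;> ring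
  have e4 : f (i + 1 + 1) + f (i + 1 + 2) = f i + f (i + 2) := by fin_cases i <;> simp <;> ring
  have e5 : f (i + 2 + 1) + f (i + 2 + 2) = f i + f (i + 1) := by fin_cases i <;> simp <;> ring
  rcases le_total (f (i + 1)) (f (i + 2)) with o | o
  · exact ptree_sound hG hB hI h0 h1 hη D.ax (by linarith) rfl e4 e5 (fun t p q => ⟨p, q⟩) hi o
      hT T _ _ _ _ _ _ ht hxa hxb (c _ hy) (hv _) (c _ hz) (hv _)
  · exact ptree_sound hG hB hI h0 h1 hη D.ax (j := i + 2) (l := i + 1) (by linarith) (add_comm _ _)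
      e5 e4 (fun t p q => ⟨q, p⟩) hi o
      hT T _ _ _ _ _ _ ht hxa hxb (c _ hz) (hv _) (c _ hy) (hv _)

end

end Vale.Agent.P232.GapPair
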